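import Vale.Agent.P052_h4.Main

/-!
# Borsuk's conjecture fails in dimension 63

There is a bounded set `Y` of positive diameter in `ℝ^63` (it has 321 points) which is not the
union of `64 = 63 + 1` sets of diameter strictly smaller than the diameter of `Y`.
-/

namespace Vale.Agent.Results.P052.Dim63

open Vale.Agent.P052h4

/-- Borsuk's conjecture fails in dimension `63`: it is not true that every bounded set of
positive diameter in `ℝ^63` is a union of `64` sets of strictly smaller diameter. -/
theorem result :
    ¬ ∀ Y : Set (EuclideanSpace ℝ (Fin 63)), Bornology.IsBounded Y → 0 < Metric.diam Y →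
      ∃ P : Fin 64 → Set (EuclideanSpace ℝ (Fin 63)),
        Y = ⋃ c, P c ∧ ∀ c, Metric.diam (P c) < Metric.diam Y := by
  intro h
  obtain ⟨P, hU, hd⟩ := h YY bounded_YY diam_YY_pos
  exact no_partition P hU hd

end Vale.Agent.Results.P052.Dim63
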